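import Mathlib.Topology.MetricSpace.Basic
import Mathlib.Tactic.Linarith

/-!
# P167, general `q`, route (C): oscillation from blocks

If the oscillation in the blocks `[a m, a (m + 1)]` is at most `β` and the blocks which end before
`T` (except the first) are longer than `d`, then the oscillation at scale `d` on `[0, T]` is at most
`3 β`.
-/

set_option autoImplicit false

namespace Vale.Agent.P167.H199.DT

theorem osc_of_blocks {w : ℝ → ℝ} {a : ℕ → ℝ} {T d β : ℝ} (a0 : a 0 = 0) (ha : Monotone a)
    (hβ : 0 ≤ β)
    (hb : ∀ m u, a m ≤ u → u ≤ a (m + 1) → u ≤ T → |w u - w (a m)| ≤ β)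
    (hg : ∀ m, 1 ≤ m → a (m + 1) ≤ T → d < a (m + 1) - a m) (m : ℕ) :
    ∀ s t, 0 ≤ s → s ≤ t → t ≤ T → t ≤ a m → t - s ≤ d → |w t - w s| ≤ 3 * β := by
  induction m with
  | zero =>
    intro s t h0 hst hT ht hd
    have h1 : s = t := le_antisymm hst (by rw [a0] at ht; linarith)
    rw [h1, sub_self, abs_zero]
    positivity
  | succ m ih =>
    intro s t h0 hst hT ht hd
    rcases le_total t (a m) with h1 | h1
    · exact ih s t h0 hst hT h1 hd
    · rcases le_or_gt (a m) s with h2 | h2
      · have e1 := hb m t h1 ht hT
        have e2 := hb m s h2 (hst.trans ht) (hst.trans hT)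
        have e3 : w t - w s = (w t - w (a m)) - (w s - w (a m)) := by ring
        rw [e3]
        have := abs_sub (w t - w (a m)) (w s - w (a m))
        linarith
      · obtain _ | m := m
        · rw [a0] at h2
          linarith
        · have h3 : a m ≤ s := by
            obtain _ | m := m
            · rwa [a0]
            · have := hg (m + 1) (by omega) (h1.trans hT)
              linarith
          have e1 := hb (m + 1) t h1 ht hT
          have e2 := hb m s h3 h2.le (hst.trans hT)
          have e4 := hb m (a (m + 1)) (ha (Nat.le_succ m)) le_rfl (h1.trans hT)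
          have e3 : w t - w s = (w t - w (a (m + 1))) + ((w (a (m + 1)) - w (a m)) -
            (w s - w (a m))) := by ring
          rw [e3]
          have c1 := abs_add_le (w t - w (a (m + 1))) ((w (a (m + 1)) - w (a m)) -
            (w s - w (a m)))
          have c2 := abs_sub (w (a (m + 1)) - w (a m)) (w s - w (a m))
          linarith

end Vale.Agent.P167.H199.DT
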