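import Vale.Agent.P167.H199.DT.Stops
import Vale.Agent.P167.H199.DT.Osc

/-!
# P167, general `q`, route (C): the oscillation of the driver off the bad events
-/

set_option autoImplicit false

namespace Vale.Agent.P167.H199.DT

open Filter Topology Set
open Vale.Agent.P153.M1 (Expl)
open scoped NNReal

variable {A B : Type*} {X : Expl A B}

theorem exists_step {c : ℕ → ℝ} {a b : ℕ} {u : ℝ} (hab : a < b) (ha : c a ≤ u) (hb : u ≤ c b) :
    ∃ j, a ≤ j ∧ j < b ∧ c j ≤ u ∧ u ≤ c (j + 1) := by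
  induction b, hab using Nat.le_induction with
  | base => exact ⟨a, le_rfl, Nat.lt_succ_self a, ha, hb⟩
  | succ b hab ih =>
    rcases le_total u (c b) with h1 | h1
    · obtain ⟨j, h2, h3, h4⟩ := ih h1
      exact ⟨j, h2, h3.trans (Nat.lt_succ_self b), h4⟩
    · exact ⟨b, (Nat.le_succ a).trans hab, Nat.lt_succ_self b, h1, hb⟩

/-- The steps before the exit are small. -/
def Sml (X : Expl A B) (T R e : ℝ) (h : A) : Prop :=
  ∀ k, k + 1 < X.K h → (∀ j ≤ k, X.c h j ≤ T ∧ |X.V h j| ≤ R) →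
    X.c h (k + 1) - X.c h k ≤ e ∧ ∀ u : ℝ≥0, X.c h k ≤ u →
      (u : ℝ) ≤ X.c h (k + 1) → |X.w h u - X.V h k| ≤ e

section

variable {T R e ε : ℝ} {h : A}

theorem c_nonneg (hX : X.WF) (hh : h ∈ X.C) {j : ℕ} (hj : j ≤ X.K h) : 0 ≤ X.c h j := by
  have := hX.tt_nonneg hh j
  rwa [Expl.tt_le hj] at this

theorem c_mono (hX : X.WF) (hh : h ∈ X.C) {i j : ℕ} (hij : i ≤ j) (hj : j ≤ X.K h) :
    X.c h i ≤ X.c h j := by
  have := hX.tt_mono hh hij
  rwa [Expl.tt_le hj, Expl.tt_le (hij.trans hj)] at this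

theorem V_zero (hX : X.WF) (hh : h ∈ X.C) : X.V h 0 = 0 := by
  show X.w h (X.c h 0).toNNReal = 0
  rw [hX.c0 h hh, Real.toNNReal_zero]
  exact hX.w0 h hh

theorem W_c (j : ℕ) : X.W h (X.c h j) = X.V h j := rfl

theorem sml_W (hX : X.WF) (H : TOk X (ext X T R)) (hh : h ∈ X.C) (hs : Sml X T R e h) {j : ℕ}
    (hj : j < ext X T R h) {u : ℝ} (h1 : X.c h j ≤ u) (h2 : u ≤ X.c h (j + 1)) :
    |X.W h u - X.V h j| ≤ e := by
  have hK : j + 1 < X.K h := Nat.lt_of_le_of_lt hj (H.lt h hh)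
  have h0 : 0 ≤ u := (c_nonneg hX hh (Nat.lt_of_succ_lt hK).le).trans h1
  refine (hs j hK fun i hi => ext_bef (hi.trans_lt hj)).2 u.toNNReal ?_ ?_
  · rwa [Real.coe_toNNReal _ h0]
  · rwa [Real.coe_toNNReal _ h0]

theorem step_V (H : TOk X (ext X T R)) (hh : h ∈ X.C) (hs : Sml X T R e h) {j : ℕ}
    (hj : j < ext X T R h) : |X.V h (j + 1) - X.V h j| ≤ e := by
  have h1 := sml_W H.wf H hh hs hj (u := X.c h (j + 1))
    (H.wf.mono h hh j ((Nat.lt_succ_self j).trans_le (Nat.succ_le_of_lt hj) |>.trans (H.lt h hh)))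
    le_rfl
  exact h1

theorem blk_V (H : TOk X (ext X T R)) (hh : h ∈ X.C) (hs : Sml X T R e h) (hε : 0 < ε)
    (he : 0 ≤ e) {m j : ℕ} (h1 : stp X (ext X T R) ε m h ≤ j)
    (h2 : j ≤ stp X (ext X T R) ε (m + 1) h) :
    |X.V h j - X.V h (stp X (ext X T R) ε m h)| ≤ ε + e := by
  rcases h1.eq_or_lt with h3 | h3
  · rw [← h3, sub_self, abs_zero]
    positivity
  · obtain ⟨i, rfl⟩ : ∃ i, j = i + 1 := ⟨j - 1, by omega⟩
    have h4 := stp_bef (X := X) (τ := ext X T R) (ε := ε) (h := h) (m := m) (j := i) (by omega)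
      (by omega)
    have h5 := step_V H hh hs (j := i) (by
      have := stp_le (ε := ε) H hh (m + 1)
      omega)
    have h6 : X.V h (i + 1) - X.V h (stp X (ext X T R) ε m h) =
        (X.V h i - X.V h (stp X (ext X T R) ε m h)) + (X.V h (i + 1) - X.V h i) := by ring
    rw [h6]
    exact (abs_add_le _ _).trans (add_le_add h4.le h5)

theorem bd_V (H : TOk X (ext X T R)) (hh : h ∈ X.C) (hs : Sml X T R e h) (hε : 0 < ε)
    (he : 0 ≤ e) (m : ℕ) : ∀ j ≤ stp X (ext X T R) ε m h, |X.V h j| ≤ m * (ε + e) + e := by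
  induction m with
  | zero =>
    intro j hj
    have hj' : j ≤ 1 := hj
    rw [Nat.cast_zero, zero_mul, zero_add]
    rcases Nat.le_one_iff_eq_zero_or_eq_one.1 hj' with h1 | h1
    · rw [h1, V_zero H.wf hh, abs_zero]
      exact he
    · have h2 := step_V H hh hs (j := 0) (H.one h hh)
      rw [V_zero H.wf hh, sub_zero, zero_add] at h2
      rw [h1]
      exact h2
  | succ m ih =>
    intro j hj
    rcases le_total j (stp X (ext X T R) ε m h) with h1 | h1
    · refine (ih j h1).trans ?_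
      push_cast
      nlinarith
    · have h2 := blk_V H hh hs hε he h1 hj
      have h3 := ih _ le_rfl
      have h4 := abs_add_le (X.V h j - X.V h (stp X (ext X T R) ε m h))
        (X.V h (stp X (ext X T R) ε m h))
      rw [sub_add_cancel] at h4
      push_cast
      nlinarith

theorem blk_W (H : TOk X (ext X T R)) (hh : h ∈ X.C) (hs : Sml X T R e h) (hε : 0 < ε)
    (he : 0 ≤ e) {m : ℕ} {u : ℝ} (h1 : X.c h (stp X (ext X T R) ε m h) ≤ u)
    (h2 : u ≤ X.c h (stp X (ext X T R) ε (m + 1) h)) :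
    |X.W h u - X.W h (X.c h (stp X (ext X T R) ε m h))| ≤ ε + e := by
  rw [W_c]
  rcases (stp_le_succ (ε := ε) H hh m).eq_or_lt with h3 | h3
  · rw [← h3] at h2
    rw [le_antisymm h2 h1, W_c, sub_self, abs_zero]
    positivity
  · obtain ⟨j, h4, h5, h6, h7⟩ := exists_step h3 h1 h2
    have h8 : j < ext X T R h := h5.trans_le (stp_le H hh (m + 1))
    have h9 := sml_W H.wf H hh hs h8 h6 h7
    have h10 := stp_bef h4 h5
    have h11 : X.W h u - X.V h (stp X (ext X T R) ε m h) =
        (X.W h u - X.V h j) + (X.V h j - X.V h (stp X (ext X T R) ε m h)) := by ring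
    rw [h11]
    have := abs_add_le (X.W h u - X.V h j) (X.V h j - X.V h (stp X (ext X T R) ε m h))
    linarith

/-- **The oscillation of the driver off the bad events.** -/
theorem good_osc (H : TOk X (ext X T R)) (hh : h ∈ X.C)
    (hex : ∃ k < X.K h, T < X.c h k ∨ R < |X.V h k|) (hs : Sml X T R e h) (hε : 0 < ε)
    (he : 0 ≤ e) (heε : e ≤ ε) {M : ℕ} (hR : (M + 1) * (2 * ε) ≤ R) {d : ℝ}
    (hM : stp X (ext X T R) ε M h = ext X T R h)
    (hg : ∀ m < M, h ∉ Gev X (stp X (ext X T R) ε m) ε d) :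
    ∀ s t, 0 ≤ s → s ≤ t → t ≤ T → t - s ≤ d → |X.W h t - X.W h s| ≤ 6 * ε := by
  have hτ : T < X.c h (ext X T R h) := by
    rcases (ext_spec hex).2 with h1 | h1
    · exact h1
    · have h2 := bd_V H hh hs hε he M (ext X T R h) hM.ge
      have h3 : (M : ℝ) * (ε + e) + e ≤ (M + 1) * (2 * ε) := by
        have : (0 : ℝ) ≤ M := Nat.cast_nonneg M
        nlinarith
      linarith
  have hcm : ∀ {i j : ℕ}, i ≤ j → j ≤ ext X T R h → X.c h i ≤ X.c h j := fun hij hj =>
    c_mono H.wf hh hij (hj.trans (H.lt h hh).le)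
  have hconst : ∀ m, M ≤ m → stp X (ext X T R) ε m h = ext X T R h := by
    intro m hm
    induction m, hm using Nat.le_induction with
    | base => exact hM
    | succ m hm ih =>
      exact le_antisymm (stp_le H hh _) (ih.ge.trans (stp_le_succ H hh m))
  set a : ℕ → ℝ := fun m => Nat.rec 0 (fun i _ => X.c h (stp X (ext X T R) ε i h)) m with ha
  have ha1 : ∀ m, a (m + 1) = X.c h (stp X (ext X T R) ε m h) := fun m => rfl
  have hmono : Monotone a := by
    refine monotone_nat_of_le_succ fun m => ?_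
    obtain _ | m := m
    · rw [ha1]
      exact c_nonneg H.wf hh (stp_lt_K H hh 0).le
    · rw [ha1, ha1]
      exact hcm (stp_le_succ H hh m) (stp_le H hh (m + 1))
  have hkey := osc_of_blocks (w := X.W h) (a := a) (T := T) (d := d) (β := 2 * ε) rfl hmono
    (by positivity) (by
      intro m u h1 h2 h3
      obtain _ | m := m
      · have e0 : (a 0 : ℝ) = X.c h 0 := (H.wf.c0 h hh).symm
        rw [e0] at h1 ⊢
        rw [W_c]
        have e1 : a (0 + 1) = X.c h (0 + 1) := rfl
        rw [e1] at h2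
        have := sml_W H.wf H hh hs (j := 0) (H.one h hh) h1 h2
        linarith
      · rw [ha1] at h1 h2
        rw [ha1]
        have := blk_W H hh hs hε he h1 h2
        linarith) (by
      intro m hm h1
      obtain ⟨m, rfl⟩ : ∃ i, m = i + 1 := ⟨m - 1, by omega⟩
      rw [ha1] at h1
      rw [ha1, ha1]
      have h2 : stp X (ext X T R) ε (m + 1) h < ext X T R h := by
        refine lt_of_le_of_ne (stp_le H hh _) fun hc => ?_
        rw [hc] at h1
        linarith
      have h3 : m < M := by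
        by_contra hc
        rw [hconst (m + 1) (by omega)] at h2
        exact lt_irrefl _ h2
      have h4 := stp_jump H hh h2
      by_contra hc
      exact hg m h3 ⟨stp X (ext X T R) ε (m + 1) h, stp_le_succ H hh m, stp_lt_K H hh _,
        not_lt.1 hc, h4⟩) (M + 1)
  intro s t h0 hst htT hd
  have h1 := hkey s t h0 hst htT (by
    rw [ha1, hM]
    linarith) hd
  linarith

end

end Vale.Agent.P167.H199.DT
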