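import Vale.Agent.P167.H199.DT.Main
import Vale.Agent.P167.QT.TopC

/-!
# P167, general `q`: the block of the tightness of the driver
-/

set_option autoImplicit false

namespace Vale.Agent.P167.H199.DT

/-- **The block [DT]** of `QT/TopC.lean`. -/
theorem blockDT : QT.BlockDT := fun _ h1 h4 => dt_out h1.le h4.le

/-- **Stage II from Stage I**: the question for every marked Jordan domain and every approximation,
from the blocks of Stage I. -/
theorem question_of_blocks (hG : QT.BlockG) (hIB : QT.BlockIB) (hone : Final.Question 1) :
    ∀ q : ℝ, 1 ≤ q → q < 4 → Final.Question q :=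
  QT.question_of_blocks hG hIB blockDT hone

end Vale.Agent.P167.H199.DT
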