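import Vale.Agent.P167.QE.FinL

/-!
# P167, general `q`, route (C): tightness of the drivers from the conditional estimate `Gap`

`Gap`: at every stopping index before the exit of `[0, T] × [-R, R]`, the conditional probability
that the driver moves by `ε` within the capacity `d` is at most `η`, for small `d` (which does not
depend on `T` and `R`) and large `n`.
-/

set_option autoImplicit false

namespace Vale.Agent.P167.H199.DT

open Filter Topology Set
open Vale.Agent.P153.M1 (Expl)
open Vale.Agent.P167.QE (cexW BefIx)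

/-- The driver moves by at least `ε` within the capacity `d` after the step `κ h`. -/
def Gev {A B : Type*} (X : Expl A B) (κ : A → ℕ) (ε d : ℝ) : Set A :=
  {h | ∃ j, κ h ≤ j ∧ j < X.K h ∧ X.c h j - X.c h (κ h) ≤ d ∧ ε ≤ |X.V h j - X.V h (κ h)|}

/-- **The conditional estimate**: after every stopping index `κ ≥ 1` before the exit of
`[0, T] × [-R, R]`, the driver moves by `ε` within the capacity `d` with small conditional
probability. -/
def Gap {A B : Type*} (X : ℕ → Expl A B) (w : ℕ → A → ℝ) : Prop :=
  ∀ ε : ℝ, 0 < ε → ∀ η : ℝ, 0 < η → ∃ d : ℝ, 0 < d ∧ ∀ T R : ℝ, ∀ᶠ n in atTop, ∀ κ : A → ℕ,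
    BefIx (X n) T R κ → (∀ h ∈ (X n).C, 1 ≤ κ h) → ∀ h ∈ (X n).C,
      cexW (X n) (w n) ((Gev (X n) κ ε d).indicator 1) h (κ h) ≤ η

end Vale.Agent.P167.H199.DT
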