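import Vale.Agent.P167.H199.DT.Out
import Vale.Agent.P167.H947.DT.Gap

/-!
# P167, general `q`, route (C): the output of the driver tightness, without hypotheses
-/

set_option autoImplicit false

namespace Vale.Agent.P167.H199.DT

open Vale.Agent.P167.QE

/-- **[DT]**: for `1 ≤ q ≤ 4` every subsequence of the interfaces of any approximation of any marked
Jordan domain has a further subsequence which converges in law to the image of the trace of a Loewner
chain with a random continuous driver. -/
theorem dt_out {q : ℝ} (h1 : 1 ≤ q) (h4 : q ≤ 4) : H259.C.DTOut q :=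
  dtOut h1 h4 fun _ _ _ _ _ _ _ _ H => H947.DT.gap_wq h1 h4 Vale.Agent.P153.R2.R1.i_uinj H

end Vale.Agent.P167.H199.DT
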