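import Vale.Agent.P167.H199.DT.Sub
import Vale.Agent.P167.H259.C.Out
import Vale.Agent.P167.QC.FinW
import Vale.Agent.P167.QC.CrossW
import Vale.Agent.P167.QN.NfQ

/-!
# P167, general `q`, route (C): the output of the driver tightness for the random-cluster model
-/

set_option autoImplicit false

namespace Vale.Agent.P167.H199.DT

open Vale.Agent.P167.QE

/-- **[DT] from the conditional estimate** for the random-cluster model, `1 ≤ q ≤ 4`. -/
theorem dtOut {q : ℝ} (h1 : 1 ≤ q) (h4 : q ≤ 4) (hgap : I_gap (wq q)) : H259.C.DTOut q :=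
  s_sub (wq_pos (zero_lt_one.trans_le h1)) Vale.Agent.P153.R2.R1.i_uinj H411.i_rado6 hgap
    (QC.crossW h1 h4) (QC.finW h1 h4) (QN.i_nfQ h1 h4)

end Vale.Agent.P167.H199.DT
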