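import Vale.Agent.P167.H199.DT.Tight

/-!
# P167, general `q`, route (C): subsequential limits of the interfaces have continuous drivers
-/

set_option autoImplicit false
set_option linter.unusedVariables false

namespace Vale.Agent.P167.H199.DT

open MeasureTheory ProbabilityTheory Filter Topology Set Metric
open Vale.Agent.P153.R2
open Vale.Agent.P153.R2.DET (Uni HC)
open Vale.Agent.P153.R2.C1
open Vale.Agent.P153.R2.Final (dom circ toC IsUniformizer)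
open Vale.Agent.P167.QE
open Vale.Agent.P167.SLE (SeqHyp Cf bq IsLim seq_sub)
open Vale.Agent.P167.H411 (Set6 exn DC DCs Qc xc_Qc good_ev DCs_bdd fjr_mono I_rado6 AsymB)
open Vale.Agent.P167.E6 Vale.Agent.P167.E2
open scoped NNReal ENNReal

section

variable {B : Type*} {S : ℕ → Finset (ℤ × ℤ)} {Q : ℕ → DC (Finset (Sym2 (ℤ × ℤ))) B}
  {ψn : ℕ → ℂ → ℂ} {bn : ℕ → ℂ} {ε : ℕ → ℝ} {ψ : ℂ → ℂ} {b : ℂ}
  {w : ℕ → Finset (Sym2 (ℤ × ℤ)) → ℝ}

/-- **The hypotheses of the curve theorem along a subsequence**, from the tightness of the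
drivers. -/
theorem seqHyp_sub [MeasurableSpace C(ℝ≥0, ℝ)] [BorelSpace C(ℝ≥0, ℝ)]
    (hw : ∀ n A, 0 < w n A)
    (hQ : ∀ n, (Q n).C = (((edges (S n)).powerset : Finset _) : Set _))
    (H : DCs Q ψn bn ε ψ b)
    (ht : IsTightMeasureSet (range fun n => (lawW (S n) (w n)).map fun a : Cf (S n) =>
      (Q n).wf (ψn n) a.1)) {R : ℝ}
    (bdd : ∀ (n : ℕ) (a : Cf (S n)) (t : unitInterval), ‖(Q n).xc a.1 t‖ ≤ R)
    (cross : ∀ (y : ℂ) (r : ℝ), 0 < r → ∀ q : ℝ≥0∞, 0 < q → ∃ k : ℕ, ∀ᶠ n in atTop,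
      lawW (S n) (w n) {a : Cf (S n) | Cross ((Q n).xc a.1) y r (3 * r) k} ≤ q)
    (fin : ∀ r : ℝ, 0 < r → ∀ q : ℝ≥0∞, 0 < q → ∃ r' : ℝ, 0 < r' ∧ ∀ᶠ n in atTop,
      lawW (S n) (w n) {a : Cf (S n) | ∃ s t : unitInterval, s ≤ t ∧
        dist ((Q n).xc a.1 s) b < r' ∧ r < dist ((Q n).xc a.1 t) b} ≤ q)
    (nf : ∀ e : ℝ, 0 < e → ∀ r₁ : ℝ, 0 < r₁ → ∀ q : ℝ≥0∞, 0 < q → ∃ ρ : ℝ, 0 < ρ ∧
      ∀ᶠ n in atTop, lawW (S n) (w n) {a : Cf (S n) | S6.FJR (ψn n '' {z | 0 < z.im}) (bn n)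
        ((Q n).xc a.1) ((Q n).T1 a.1) ρ e r₁} ≤ q)
    (j : ℕ → ℕ) (hj : StrictMono j) :
    ∃ (θ : ℕ → ℕ) (lam : Measure C(ℝ≥0, ℝ)), StrictMono θ ∧
      SeqHyp (fun n => ψn (j (θ n))) ψ (fun n => bn (j (θ n))) b (fun n => 2 * ε (j (θ n)))
        (fun n => Cf (S (j (θ n)))) (fun n => lawW (S (j (θ n))) (w (j (θ n))))
        (fun n a => (Q (j (θ n))).xc a.1) (fun n a => (Q (j (θ n))).xs (ψn (j (θ n))) a.1)
        (fun n a => (Q (j (θ n))).cs (ψn (j (θ n))) a.1)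
        (fun n a => (Q (j (θ n))).wf (ψn (j (θ n))) a.1)
        (fun n a => (Q (j (θ n))).T0 a.1) (fun n a => (Q (j (θ n))).T1 a.1) lam R := by
  have hpr : ∀ n, IsProbabilityMeasure (lawW (S n) (w n)) := fun n => lawW_prob _ (hw n)
  obtain ⟨θ, hθ, lam, hlam, hlim⟩ := exists_lim_of_tight
    (fun n => (lawW (S n) (w n)).map fun a : Cf (S n) => (Q n).wf (ψn n) a.1)
    (fun n => Measure.isProbabilityMeasure_map
      (Measurable.of_discrete (f := fun a : Cf (S n) => (Q n).wf (ψn n) a.1)).aemeasurable) ht j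
  have hk : Tendsto (fun n => j (θ n)) atTop atTop := (hj.comp hθ).tendsto_atTop
  have hmem : ∀ n (a : Cf (S n)), a.1 ∈ (Q n).C := fun n a => by
    rw [hQ n]
    exact a.2
  have hdisc : ∀ (n : ℕ) (a : Cf (S n)), UNIQ.Disc (ψn n) (bn n) ((Q n).xc a.1)
      ((Q n).xs (ψn n) a.1) ((Q n).cs (ψn n) a.1) ((Q n).wf (ψn n) a.1) ((Q n).T0 a.1)
      ((Q n).T1 a.1) (2 * ε n) := fun n a => DC.disc (H.wf n) (H.unin n) (hmem n a)
  have htight : ∀ q : ℝ≥0∞, 0 < q → ∃ K : Set C(ℝ≥0, ℝ), IsCompact K ∧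
      ∀ᶠ n in atTop, lawW (S n) (w n) {a : Cf (S n) | (Q n).wf (ψn n) a.1 ∉ K} ≤ q := by
    intro q hq
    obtain ⟨K, hK, hK'⟩ := htight_of_tight ht q hq
    exact ⟨K, hK, Eventually.of_forall hK'⟩
  have htip := S6.tip' (fun n => lawW (S n) (w n)) ψn ψ bn b H.uni H.unif H.endp H.unin H.diff
    (fun n (a : Cf (S n)) => (Q n).xc a.1) (fun n a => (Q n).xs (ψn n) a.1)
    (fun n a => (Q n).cs (ψn n) a.1) (fun n a => (Q n).wf (ψn n) a.1)
    (fun n a => (Q n).T0 a.1) (fun n a => (Q n).T1 a.1) (fun n => 2 * ε n) hdisc htight fin nf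
  refine ⟨θ, lam, hθ, ?_⟩
  exact
    { prob := fun n => hpr _
      problam := hlam
      uni := H.uni
      unif := by
        rw [Metric.tendstoUniformlyOn_iff]
        intro e' he'
        exact hk.eventually (Metric.tendstoUniformlyOn_iff.1 H.unif e' he')
      endp := H.endp.comp hk
      eps := by simpa using (H.eps.comp hk).const_mul 2
      disc := fun n a => hdisc _ a
      drv := by
        intro f hf hM
        refine (hlim f hf hM).congr fun n => ?_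
        exact integral_map (Measurable.of_discrete (f := fun a : Cf (S (j (θ n))) =>
          (Q (j (θ n))).wf (ψn (j (θ n))) a.1)).aemeasurable hf.aestronglyMeasurable
      bdd := fun n a t => bdd _ a t
      cross := by
        intro y r hr q hq
        obtain ⟨m, hm⟩ := cross y r hr q hq
        exact ⟨m, hk.eventually hm⟩
      fin := by
        intro r hr q hq
        obtain ⟨r', hr', hm⟩ := fin r hr q hq
        exact ⟨r', hr', hk.eventually hm⟩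
      tip := by
        intro e he r hr q hq
        obtain ⟨d, hd, hm⟩ := htip e he r hr q hq
        exact ⟨d, hd, hk.eventually hm⟩ }

end

/-- Input: the conditional estimate for the driver. -/
def I_gap (wt : Wt) : Prop :=
  ∀ (Φ : (ℝ × ℝ) ≃ₜ (ℝ × ℝ)) (ψ : ℂ → ℂ)
  (δ : ℕ → ℝ) (N k : ℕ → ℕ) (p : ∀ n, ZMod (N n) → ℤ × ℤ) (S : ℕ → Finset (ℤ × ℤ))
  (ψn : ℕ → ℂ → ℂ), Set6 Φ ψ δ N k p S ψn →
    Gap (exn δ N k p S ψn) (fun n => wt (N n) (p n) (k n) (S n))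

theorem gap_shift {A B : Type*} {X : ℕ → Vale.Agent.P153.M1.Expl A B} {w : ℕ → A → ℝ}
    (h : Gap X w) (n₀ : ℕ) : Gap (fun n => X (n + n₀)) (fun n => w (n + n₀)) := by
  intro ε hε η hη
  obtain ⟨d, hd, h1⟩ := h ε hε η hη
  exact ⟨d, hd, fun T R => (tendsto_add_atTop_nat n₀).eventually (h1 T R)⟩

/-- **Subsequential limits of the interfaces have continuous drivers**: every subsequence of the
interfaces of any approximation of any marked domain has a further subsequence along which the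
interfaces converge in law to the image of the trace of a Loewner chain with a random continuous
driver. -/
def S_sub (wt : Wt) : Prop :=
  ∀ [MeasurableSpace C(ℝ≥0, ℝ)] [BorelSpace C(ℝ≥0, ℝ)] [MeasurableSpace C(unitInterval, ℂ)]
    [BorelSpace C(unitInterval, ℂ)] (Φ : (ℝ × ℝ) ≃ₜ (ℝ × ℝ)) (ψ : ℂ → ℂ), IsUniformizer Φ ψ →
    ∀ (δ : ℕ → ℝ) (N k : ℕ → ℕ) (p : ∀ n, ZMod (N n) → ℤ × ℤ) (S : ℕ → Finset (ℤ × ℤ)),
    Approx Φ δ N k p S → ∀ c : ℕ → Finset (Sym2 (ℤ × ℤ)) → C(unitInterval, ℂ),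
    (∀ n, ∀ A ⊆ edges (S n), IsInterface (p n) (k n) (δ n) A (c n A)) →
    ∀ κ : ℕ → ℕ, StrictMono κ →
    ∃ (θ : ℕ → ℕ) (lam : Measure C(ℝ≥0, ℝ)) (ν : Measure (C(ℝ≥0, ℝ) × C(unitInterval, ℂ))),
      StrictMono θ ∧ IsLim ψ (bq Φ) lam ν ∧
      ∀ F : C(unitInterval, ℂ) → ℝ, Continuous F → (∃ M, ∀ x, |F x| ≤ M) →
        (∀ (x : C(unitInterval, ℂ)) (σ : unitInterval ≃o unitInterval), F (reparam x σ) = F x) →
        Tendsto (fun n => meanW (S (κ (θ n)))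
          (wt _ (p (κ (θ n))) (k (κ (θ n))) (S (κ (θ n)))) fun A =>
          F (c (κ (θ n)) A)) atTop (𝓝 (∫ y, F y.2 ∂ν))

theorem s_sub {wt : Wt} (hwt : WPos wt) (huinj : UNIQ.I_uinj) (hrado : I_rado6)
    (hgap : I_gap wt) (hcross : I_crossW wt) (hfin : I_finW wt) (hnf : I_nfW wt) : S_sub wt := by
  intro _ _ _ _ Φ ψ hψ δ N k p S hA c hc κ hκ
  obtain ⟨ψn, H⟩ := hrado Φ ψ hψ δ N k p S hA
  obtain ⟨n₀, hn₀⟩ := eventually_atTop.1 (good_ev H.appr)
  have hD := H.dcs huinj hn₀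
  obtain ⟨R, hR⟩ := DCs_bdd hD
  have hs := tendsto_add_atTop_nat n₀
  have hG := gap_shift (hgap Φ ψ δ N k p S ψn H) n₀
  have htight := tight_of_gap (S := fun n => S (n + n₀))
    (X := fun n => (Qc (p (n + n₀)) (k (n + n₀)) (δ (n + n₀)) (S (n + n₀))).expl (ψn (n + n₀)))
    (w := fun n => wt _ (p (n + n₀)) (k (n + n₀)) (S (n + n₀))) hD.asymB
    (fun n A => hwt _ _ _ _ A) (fun n => rfl) hG
  -- the subsequence
  have hge : ∀ n, n₀ ≤ κ (n + n₀) := fun n => (Nat.le_add_left n₀ n).trans (hκ.id_le _)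
  obtain ⟨j, hj⟩ : ∃ j : ℕ → ℕ, j = fun n => κ (n + n₀) - n₀ := ⟨_, rfl⟩
  have hjn : ∀ n, j n + n₀ = κ (n + n₀) := by
    intro n
    rw [hj]
    exact Nat.sub_add_cancel (hge n)
  have hjm : StrictMono j := by
    intro a b hab
    have h1 : κ (a + n₀) < κ (b + n₀) := hκ (by omega)
    have h2 := hjn a
    have h3 := hjn b
    omega
  obtain ⟨θ₁, lam, hθ₁, hseq⟩ := seqHyp_sub (R := R) (S := fun n => S (n + n₀))
    (w := fun n => wt _ (p (n + n₀)) (k (n + n₀)) (S (n + n₀)))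
    (fun n A => hwt _ _ _ _ A) (fun n => rfl) hD htight
    (fun n a t => hR n a.1 a.2 t)
    (by
      intro y r hr q hq
      obtain ⟨m, hm⟩ := hcross Φ δ N k p S hA y r hr q hq
      refine ⟨m, ?_⟩
      filter_upwards [hs.eventually hm] with n h
      simp only [xc_Qc]
      exact h)
    (by
      intro r hr q hq
      obtain ⟨r', hr', hm⟩ := hfin Φ δ N k p S hA r hr q hq
      refine ⟨r', hr', ?_⟩
      filter_upwards [hs.eventually hm] with n h
      simp only [xc_Qc]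
      exact h)
    (by
      intro e he r hr q hq
      obtain ⟨ρ, hρ, hm⟩ := hnf Φ δ N k p S hA e he r hr q hq
      refine ⟨ρ, hρ, ?_⟩
      filter_upwards [hs.eventually hm] with n h
      refine (measure_mono ?_).trans h
      intro a ha
      have hg := hn₀ (n + n₀) (Nat.le_add_left _ _)
      have ha' := ha
      simp only [mem_ofPred_eq, xc_Qc] at ha'
      rw [(H.isU _ hg).img] at ha'
      refine fjr_mono ?_ ha'
      have hpos : (0 : ℝ) < (nu (p (n + n₀)) (k (n + n₀)) a.1 : ℝ) := by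
        exact_mod_cast Nat.succ_pos _
      change ((nu (p (n + n₀)) (k (n + n₀)) a.1 : ℝ) - 1 / 2) /
        (nu (p (n + n₀)) (k (n + n₀)) a.1 : ℝ) ≤ 1
      rw [div_le_one hpos]
      linarith) j hjm
  obtain ⟨θ₂, ν, hθ₂, hν, hF⟩ := seq_sub (Ω := fun n => Cf (S (j (θ₁ n) + n₀))) hseq
      (fun n (a : Cf (S (j (θ₁ n) + n₀))) =>
      c (j (θ₁ n) + n₀) a.1) (fun n => 2 * δ (j (θ₁ n) + n₀)) (by
        have h1 : Tendsto (fun n => j (θ₁ n) + n₀) atTop atTop := by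
          have h2 : (fun n => j (θ₁ n) + n₀) = fun n => κ (θ₁ n + n₀) :=
            funext fun n => hjn (θ₁ n)
          rw [h2]
          exact hκ.tendsto_atTop.comp ((tendsto_add_atTop_nat n₀).comp hθ₁.tendsto_atTop)
        simpa using (hA.2.1.comp h1).const_mul 2)
      (by
        intro n a
        obtain ⟨h1, h2, h3, h4, h5⟩ := hA.1 (j (θ₁ n) + n₀)
        have ha : a.1 ⊆ edges (S (j (θ₁ n) + n₀)) := Finset.mem_powerset.1 a.2
        refine ⟨OrderIso.refl _, ?_⟩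
        rw [H411.reparam_refl, isInterface_unique h4 h5 h3 ha (hc _ _ ha), xc_Qc]
        exact dist_crv_Xc h4 h5 h2 h3 ha h1.le) id strictMono_id
  refine ⟨fun n => θ₁ (θ₂ n) + n₀, lam, ν, fun a b hab => ?_, hν, fun F hFc hM hinv => ?_⟩
  · have := hθ₁ (hθ₂ hab)
    show θ₁ (θ₂ a) + n₀ < θ₁ (θ₂ b) + n₀
    omega
  · refine (hF F hFc hM hinv).congr fun n => ?_
    have e1 := (meanW_eq (S (j (θ₁ (θ₂ n)) + n₀))
      (fun A => hwt _ (p (j (θ₁ (θ₂ n)) + n₀)) (k (j (θ₁ (θ₂ n)) + n₀))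
        (S (j (θ₁ (θ₂ n)) + n₀)) A)
      fun A => F (c (j (θ₁ (θ₂ n)) + n₀) A)).symm
    refine Eq.trans e1 ?_
    rw [hjn (θ₁ (θ₂ n))]

end Vale.Agent.P167.H199.DT
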