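import Vale.Agent.P167.H199.DT.Prob
import Vale.Agent.P167.QE.SeqL

/-!
# P167, general `q`, route (C): tightness of the drivers
-/

set_option autoImplicit false

namespace Vale.Agent.P167.H199.DT

open MeasureTheory ProbabilityTheory Filter Topology Set
open Vale.Agent.P153.M1 (Expl Osc isOpen_Osc tight_of_modulus)
open Vale.Agent.P167.QE
open Vale.Agent.P167.E6 (edges)
open Vale.Agent.P167.SLE (Cf)
open Vale.Agent.P167.H411 (AsymB DC DCs)
open scoped NNReal ENNReal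

/-- The laws of the drivers of a family of curves. -/
theorem tight_of_gap [MeasurableSpace C(ℝ≥0, ℝ)] [BorelSpace C(ℝ≥0, ℝ)] {B : Type*}
    {S : ℕ → Finset (ℤ × ℤ)} {X : ℕ → Expl (Finset (Sym2 (ℤ × ℤ))) B}
    {w : ℕ → Finset (Sym2 (ℤ × ℤ)) → ℝ} (hX : AsymB X) (hw : ∀ n A, 0 < w n A)
    (hC : ∀ n, (X n).C = (((edges (S n)).powerset : Finset _) : Set _)) (hG : Gap X w) :
    IsTightMeasureSet (range fun n => (lawW (S n) (w n)).map fun a : Cf (S n) =>
      (X n).w a.1) := by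
  have hpr : ∀ n, IsProbabilityMeasure (lawW (S n) (w n)) := fun n => lawW_prob _ (hw n)
  have hm : ∀ n, Measurable fun a : Cf (S n) => (X n).w a.1 := fun n => Measurable.of_discrete
  have hpm : ∀ n, IsProbabilityMeasure ((lawW (S n) (w n)).map fun a : Cf (S n) =>
      (X n).w a.1) := fun n => Measure.isProbabilityMeasure_map (hm n).aemeasurable
  refine tight_of_modulus _ (fun n => ?_) fun T hT ε hε η hη => ?_
  · have hms : MeasurableSet {f : C(ℝ≥0, ℝ) | f 0 = 0} :=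
      (isClosed_eq (continuous_eval_const 0) continuous_const).measurableSet
    rw [ae_map_iff (hm n).aemeasurable hms]
    refine ae_of_all _ fun a => ?_
    refine (hX.wf n).w0 a.1 ?_
    rw [hC n]
    exact a.2
  · obtain ⟨θ, hθ, hev⟩ := modulus_of_gap hX (fun n a _ => hw n a) hG hT hε hη
    refine ⟨θ, hθ, ?_⟩
    filter_upwards [hev] with n hn
    rw [measureReal_def, Measure.map_apply (hm n) (isOpen_Osc T θ ε).measurableSet,
      ← measureReal_def, ← integral_indicator_one (hm n (isOpen_Osc T θ ε).measurableSet)]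
    refine le_trans (le_of_eq ?_) hn
    rw [hC n, exW_law _ (hw n)]
    refine integral_congr_ae (ae_of_all _ fun a => ?_)
    have hiff : (a ∈ (fun a : Cf (S n) => (X n).w a.1) ⁻¹' Osc T θ ε) ↔
        a.1 ∈ {h | ∃ s t, 0 ≤ s ∧ s ≤ t ∧ t ≤ T ∧ t - s ≤ θ ∧
          ε < |(X n).W h t - (X n).W h s|} := by
      constructor
      · rintro ⟨s, t, h1, h2, h3, h4⟩
        refine ⟨s, t, s.2, h1, h2, h3, ?_⟩
        show ε < |(X n).w a.1 (t : ℝ).toNNReal - (X n).w a.1 (s : ℝ).toNNReal|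
        rw [Real.toNNReal_coe, Real.toNNReal_coe]
        exact h4
      · rintro ⟨s, t, h0, h1, h2, h3, h4⟩
        refine ⟨s.toNNReal, t.toNNReal, Real.toNNReal_le_toNNReal h1, ?_, ?_, h4⟩
        · rw [Real.coe_toNNReal _ (h0.trans h1)]
          exact h2
        · rw [Real.coe_toNNReal _ (h0.trans h1), Real.coe_toNNReal _ h0]
          exact h3
    by_cases ha : a ∈ (fun a : Cf (S n) => (X n).w a.1) ⁻¹' Osc T θ ε
    · rw [indicator_of_mem ha]
      exact (indicator_of_mem (hiff.1 ha) (1 : Finset (Sym2 (ℤ × ℤ)) → ℝ)).symm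
    · rw [indicator_of_notMem ha]
      exact (indicator_of_notMem (fun h => ha (hiff.2 h))
        (1 : Finset (Sym2 (ℤ × ℤ)) → ℝ)).symm

/-- **Prokhorov's theorem** on the path space. -/
theorem exists_lim_of_tight [MeasurableSpace C(ℝ≥0, ℝ)] [BorelSpace C(ℝ≥0, ℝ)]
    (μ : ℕ → Measure C(ℝ≥0, ℝ)) (hμ : ∀ n, IsProbabilityMeasure (μ n))
    (ht : IsTightMeasureSet (range μ)) (κ : ℕ → ℕ) :
    ∃ (θ : ℕ → ℕ) (_ : StrictMono θ) (ν : Measure C(ℝ≥0, ℝ)) (_ : IsProbabilityMeasure ν),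
      ∀ f : C(ℝ≥0, ℝ) → ℝ, Continuous f → (∃ M, ∀ y, |f y| ≤ M) →
        Tendsto (fun n => ∫ y, f y ∂(μ (κ (θ n)))) atTop (𝓝 (∫ y, f y ∂ν)) := by
  let p : ℕ → ProbabilityMeasure C(ℝ≥0, ℝ) := fun n => ⟨μ n, hμ n⟩
  have hcp : IsCompact (closure (range p)) := by
    refine isCompact_closure_of_isTightMeasureSet ?_
    refine ht.subset ?_
    rintro _ ⟨q, ⟨n, rfl⟩, rfl⟩
    exact ⟨n, rfl⟩
  obtain ⟨ν, -, θ, hθ, hlim⟩ := hcp.tendsto_subseq (x := fun n => p (κ n))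
    fun n => subset_closure ⟨κ n, rfl⟩
  refine ⟨θ, hθ, ν, inferInstance, fun f hf hC => ?_⟩
  obtain ⟨C, hC⟩ := hC
  exact (ProbabilityMeasure.tendsto_iff_forall_integral_tendsto.1 hlim)
    (BoundedContinuousFunction.ofNormedAddCommGroup f hf C hC)

/-- The sets of `tight_of_gap`. -/
theorem htight_of_tight [MeasurableSpace C(ℝ≥0, ℝ)] [BorelSpace C(ℝ≥0, ℝ)] {Ω : ℕ → Type}
    [∀ n, MeasurableSpace (Ω n)] [∀ n, DiscreteMeasurableSpace (Ω n)] {P : ∀ n, Measure (Ω n)}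
    {w : ∀ n, Ω n → C(ℝ≥0, ℝ)} (h : IsTightMeasureSet (range fun n => (P n).map (w n)))
    (q : ℝ≥0∞) (hq : 0 < q) : ∃ K : Set C(ℝ≥0, ℝ), IsCompact K ∧
      ∀ n, P n {a | w n a ∉ K} ≤ q := by
  obtain ⟨K, hK, hK'⟩ := isTightMeasureSet_iff_exists_isCompact_measure_compl_le.1 h q hq
  refine ⟨K, hK, fun n => ?_⟩
  have h2 := hK' _ ⟨n, rfl⟩
  rwa [Measure.map_apply Measurable.of_discrete hK.isClosed.measurableSet.compl] at h2

end Vale.Agent.P167.H199.DT
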